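import Vale.Agent.P324.Defs
import Vale.Agent.P324.Main

namespace Vale.Agent.Results.P324.PolyTime

open Vale.Agent.P324

theorem result : ∀ m : ℕ, 1 ≤ m →
    (∃ (A : Graph × ℕ → Bool × List ℕ)
      (tm : Turing.TM2ComputableInPolyTime (encPair encGraph encNat)
        (encPair encBool (encList encNat)) A),
      (∀ k, Finite (tm.tm.Γ k)) ∧ ∀ (G : Graph) (T : ℕ),
        ((A (G, T)).1 = true ↔ ∃ τ, G.IsSchedule m T τ) ∧
        ((A (G, T)).1 = true → ∃ τ, G.IsSchedule m T τ ∧ (A (G, T)).2 = List.ofFn τ)) ∧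
    ∃ (B : Graph → List ℕ) (tm : Turing.TM2ComputableInPolyTime encGraph (encList encNat) B),
      (∀ k, Finite (tm.tm.Γ k)) ∧ ∀ G : Graph, G.Acyclic →
        ∃ T τ, G.IsSchedule m T τ ∧ B G = List.ofFn τ ∧
          ∀ T' τ', G.IsSchedule m T' τ' → T ≤ T' := by
  intro m hm
  obtain ⟨tm, h⟩ := run_poly m
  obtain ⟨tm', h'⟩ := opt_poly m
  exact ⟨⟨_, tm, h, fun G T => ⟨⟨fun h => (run_sound hm h).imp fun _ h => h.1,
    fun ⟨_, h⟩ => run_complete hm h⟩, run_sound hm⟩⟩, _, tm', h', fun G => opt_spec hm⟩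

end Vale.Agent.Results.P324.PolyTime
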